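import Mathlib
import Vale.Agent.Lib.P302.Inst119.Data

namespace Vale.Agent.Lib.P302.Inst119

open Vale.Agent.Lib.P302

set_option maxRecDepth 100000 in
theorem chunk0 : KTree.all (stepOK4 SS MS GS 15 1133964 1136420 3406800 1133964 3406801 13 TT) T0 = true := by decide +kernel

set_option maxRecDepth 100000 in
theorem chunk1 : KTree.all (stepOK4 SS MS GS 15 1133964 1136420 3406800 1133964 3406801 13 TT) T1 = true := by decide +kernel

set_option maxRecDepth 100000 in
theorem chunk2 : KTree.all (stepOK4 SS MS GS 15 1133964 1136420 3406800 1133964 3406801 13 TT) T2 = true := by decide +kernel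

set_option maxRecDepth 100000 in
theorem chunk3 : KTree.all (stepOK4 SS MS GS 15 1133964 1136420 3406800 1133964 3406801 13 TT) T3 = true := by decide +kernel

set_option maxRecDepth 100000 in
theorem chunk4 : KTree.all (stepOK4 SS MS GS 15 1133964 1136420 3406800 1133964 3406801 13 TT) T4 = true := by decide +kernel

set_option maxRecDepth 100000 in
theorem chunk5 : KTree.all (stepOK4 SS MS GS 15 1133964 1136420 3406800 1133964 3406801 13 TT) T5 = true := by decide +kernel

set_option maxRecDepth 100000 in
theorem chunk6 : KTree.all (stepOK4 SS MS GS 15 1133964 1136420 3406800 1133964 3406801 13 TT) T6 = true := by decide +kernel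

set_option maxRecDepth 100000 in
theorem chunk7 : KTree.all (stepOK4 SS MS GS 15 1133964 1136420 3406800 1133964 3406801 13 TT) T7 = true := by decide +kernel

end Vale.Agent.Lib.P302.Inst119
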