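import Mathlib
import Vale.Agent.Lib.P302.Inst119.Data

namespace Vale.Agent.Lib.P302.Inst119

open Vale.Agent.Lib.P302

set_option maxRecDepth 100000 in
theorem chunk16 : KTree.all (stepOK4 SS MS GS 15 1133964 1136420 3406800 1133964 3406801 13 TT) T16 = true := by decide +kernel

set_option maxRecDepth 100000 in
theorem chunk17 : KTree.all (stepOK4 SS MS GS 15 1133964 1136420 3406800 1133964 3406801 13 TT) T17 = true := by decide +kernel

set_option maxRecDepth 100000 in
theorem chunk18 : KTree.all (stepOK4 SS MS GS 15 1133964 1136420 3406800 1133964 3406801 13 TT) T18 = true := by decide +kernel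

set_option maxRecDepth 100000 in
theorem chunk19 : KTree.all (stepOK4 SS MS GS 15 1133964 1136420 3406800 1133964 3406801 13 TT) T19 = true := by decide +kernel

set_option maxRecDepth 100000 in
theorem chunk20 : KTree.all (stepOK4 SS MS GS 15 1133964 1136420 3406800 1133964 3406801 13 TT) T20 = true := by decide +kernel

set_option maxRecDepth 100000 in
theorem chunk21 : KTree.all (stepOK4 SS MS GS 15 1133964 1136420 3406800 1133964 3406801 13 TT) T21 = true := by decide +kernel

set_option maxRecDepth 100000 in
theorem chunk22 : KTree.all (stepOK4 SS MS GS 15 1133964 1136420 3406800 1133964 3406801 13 TT) T22 = true := by decide +kernel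

set_option maxRecDepth 100000 in
theorem chunk23 : KTree.all (stepOK4 SS MS GS 15 1133964 1136420 3406800 1133964 3406801 13 TT) T23 = true := by decide +kernel

end Vale.Agent.Lib.P302.Inst119
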