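import Mathlib
import Vale.Agent.Lib.P302.Inst119.Data

namespace Vale.Agent.Lib.P302.Inst119

open Vale.Agent.Lib.P302

set_option maxRecDepth 100000 in
theorem chunk24 : KTree.all (stepOK4 SS MS GS 15 1133964 1136420 3406800 1133964 3406801 13 TT) T24 = true := by decide +kernel

set_option maxRecDepth 100000 in
theorem chunk25 : KTree.all (stepOK4 SS MS GS 15 1133964 1136420 3406800 1133964 3406801 13 TT) T25 = true := by decide +kernel

set_option maxRecDepth 100000 in
theorem chunk26 : KTree.all (stepOK4 SS MS GS 15 1133964 1136420 3406800 1133964 3406801 13 TT) T26 = true := by decide +kernel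

set_option maxRecDepth 100000 in
theorem chunk27 : KTree.all (stepOK4 SS MS GS 15 1133964 1136420 3406800 1133964 3406801 13 TT) T27 = true := by decide +kernel

set_option maxRecDepth 100000 in
theorem chunk28 : KTree.all (stepOK4 SS MS GS 15 1133964 1136420 3406800 1133964 3406801 13 TT) T28 = true := by decide +kernel

set_option maxRecDepth 100000 in
theorem chunk29 : KTree.all (stepOK4 SS MS GS 15 1133964 1136420 3406800 1133964 3406801 13 TT) T29 = true := by decide +kernel

set_option maxRecDepth 100000 in
theorem chunk30 : KTree.all (stepOK4 SS MS GS 15 1133964 1136420 3406800 1133964 3406801 13 TT) T30 = true := by decide +kernel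

set_option maxRecDepth 100000 in
theorem chunk31 : KTree.all (stepOK4 SS MS GS 15 1133964 1136420 3406800 1133964 3406801 13 TT) T31 = true := by decide +kernel

end Vale.Agent.Lib.P302.Inst119
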