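import Mathlib
import Vale.Agent.Lib.P302.Inst119.Part0
import Vale.Agent.Lib.P302.Inst119.Part1
import Vale.Agent.Lib.P302.Inst119.Part2
import Vale.Agent.Lib.P302.Inst119.Part3

namespace Vale.Agent.Lib.P302.Inst119

open Vale.Agent.Lib.P302

set_option maxRecDepth 100000 in
theorem certLP_ok : certLP SS 3406800 18 ZZ = true := by decide +kernel

set_option maxRecDepth 100000 in
theorem pre_ok : memoPre SS MS 3406800 12 3406801 13 TT = true := by decide +kernel

set_option maxRecDepth 100000 in
theorem range_ok : rangeOK SS 15 1133964 1136420 = true := by decide +kernel

set_option maxRecDepth 100000 in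
theorem key0 : stepOK4 SS MS GS 15 1133964 1136420 3406800 1133964 3406801 13 TT 305833985338770593724215063034505 = true := by decide +kernel

set_option maxRecDepth 100000 in
theorem key1 : stepOK4 SS MS GS 15 1133964 1136420 3406800 1133964 3406801 13 TT 305834793575001263463153306874767 = true := by decide +kernel

set_option maxRecDepth 100000 in
theorem key2 : stepOK4 SS MS GS 15 1133964 1136420 3406800 1133964 3406801 13 TT 305834524163003452049097255889172 = true := by decide +kernel

set_option maxRecDepth 100000 in
theorem key3 : stepOK4 SS MS GS 15 1133964 1136420 3406800 1133964 3406801 13 TT 305910767780856167640537529739364 = true := by decide +kernel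

set_option maxRecDepth 100000 in
theorem key4 : stepOK4 SS MS GS 15 1133964 1136420 3406800 1133964 3406801 13 TT 458916621549900251591866770463215 = true := by decide +kernel

set_option maxRecDepth 100000 in
theorem key5 : stepOK4 SS MS GS 15 1133964 1136420 3406800 1133964 3406801 13 TT 306164553957328097896805868642008 = true := by decide +kernel

set_option maxRecDepth 100000 in
theorem key6 : stepOK4 SS MS GS 15 1133964 1136420 3406800 1133964 3406801 13 TT 305906726599650084140078751581304 = true := by decide +kernel

set_option maxRecDepth 100000 in
theorem key7 : stepOK4 SS MS GS 15 1133964 1136420 3406800 1133964 3406801 13 TT 1041916903836422676617545484324767126147 = true := by decide +kernel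

set_option maxRecDepth 100000 in
theorem key8 : stepOK4 SS MS GS 15 1133964 1136420 3406800 1133964 3406801 13 TT 1041917821669890350853796732712289884409 = true := by decide +kernel

set_option maxRecDepth 100000 in
theorem key9 : stepOK4 SS MS GS 15 1133964 1136420 3406800 1133964 3406801 13 TT 1041917362753223866754891054657100670811 = true := by decide +kernel

set_option maxRecDepth 100000 in
theorem key10 : stepOK4 SS MS GS 15 1133964 1136420 3406800 1133964 3406801 13 TT 1041918280586691541070229069517395351608 = true := by decide +kernel

set_option maxRecDepth 100000 in
theorem key11 : stepOK4 SS MS GS 15 1133964 1136420 3406800 1133964 3406801 13 TT 1042163342086863461883672669506578169345 = true := by decide +kernel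

set_option maxRecDepth 100000 in
theorem key12 : stepOK4 SS MS GS 15 1133964 1136420 3406800 1133964 3406801 13 TT 1042163342086324637729888367387469553340 = true := by decide +kernel

set_option maxRecDepth 100000 in
theorem key13 : stepOK4 SS MS GS 15 1133964 1136420 3406800 1133964 3406801 13 TT 1041918280586152716837370338415061452140 = true := by decide +kernel

set_option maxRecDepth 100000 in
theorem key14 : stepOK4 SS MS GS 15 1133964 1136420 3406800 1133964 3406801 13 TT 1041916444919441943248708322027213020294 = true := by decide +kernel

set_option maxRecDepth 100000 in
theorem key15 : stepOK4 SS MS GS 15 1133964 1136420 3406800 1133964 3406801 13 TT 1563437605212013490634585631701896115618 = true := by decide +kernel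

set_option maxRecDepth 100000 in
theorem key16 : stepOK4 SS MS GS 15 1133964 1136420 3406800 1133964 3406801 13 TT 1563437758294649701513846872468391059590 = true := by decide +kernel

set_option maxRecDepth 100000 in
theorem key17 : stepOK4 SS MS GS 15 1133964 1136420 3406800 1133964 3406801 13 TT 1563437605212687020826815931008325918024 = true := by decide +kernel

set_option maxRecDepth 100000 in
theorem key18 : stepOK4 SS MS GS 15 1133964 1136420 3406800 1133964 3406801 13 TT 3549605113344586905817945421910541082342065218 = true := by decide +kernel

set_option maxRecDepth 100000 in
theorem key19 : stepOK4 SS MS GS 15 1133964 1136420 3406800 1133964 3406801 13 TT 3549608240219185661874249110367117164560558820 = true := by decide +kernel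

set_option maxRecDepth 100000 in
theorem key20 : stepOK4 SS MS GS 15 1133964 1136420 3406800 1133964 3406801 13 TT 3549606676782345200512581384814695781892433624 = true := by decide +kernel

set_option maxRecDepth 100000 in
theorem key21 : stepOK4 SS MS GS 15 1133964 1136420 3406800 1133964 3406801 13 TT 3549603549905910777790341182114391922400902817 = true := by decide +kernel

set_option maxRecDepth 100000 in
theorem key22 : stepOK4 SS MS GS 15 1133964 1136420 3406800 1133964 3406801 13 TT 3553435535852408907720891690525482944689118791 = true := by decide +kernel

set_option maxRecDepth 100000 in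
theorem key23 : stepOK4 SS MS GS 15 1133964 1136420 3406800 1133964 3406801 13 TT 5326320796876646271951138632513918885014527556 = true := by decide +kernel

set_option maxRecDepth 100000 in
theorem key24 : stepOK4 SS MS GS 15 1133964 1136420 3406800 1133964 3406801 13 TT 5326320796875269521906849103223435929861339993 = true := by decide +kernel

set_option maxRecDepth 100000 in
theorem key25 : stepOK4 SS MS GS 15 1133964 1136420 3406800 1133964 3406801 13 TT 12092798249744325139963644151394787559988087310949156 = true := by decide +kernel

set_option maxRecDepth 100000 in
theorem key26 : stepOK4 SS MS GS 15 1133964 1136420 3406800 1133964 3406801 13 TT 41197684587160041297698598244570952076038700108648596071160 = true := by decide +kernel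

set_option maxRecDepth 100000 in
theorem key27 : stepOK4 SS MS GS 15 1133964 1136420 3406800 1133964 3406801 13 TT 18145715017110774769226891617215011549964907754390355 = true := by decide +kernel

set_option maxRecDepth 100000 in
theorem key28 : stepOK4 SS MS GS 15 1133964 1136420 3406800 1133964 3406801 13 TT 5326321318395970898216030637315297616021699132 = true := by decide +kernel

set_option maxRecDepth 100000 in
theorem key29 : stepOK4 SS MS GS 15 1133964 1136420 3406800 1133964 3406801 13 TT 3549608240221021328540185585070490947949955223 = true := by decide +kernel

set_option maxRecDepth 100000 in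
theorem key30 : stepOK4 SS MS GS 15 1133964 1136420 3406800 1133964 3406801 13 TT 1043041708586379321163855472404290356415 = true := by decide +kernel

theorem all_ok : KTree.all (stepOK4 SS MS GS 15 1133964 1136420 3406800 1133964 3406801 13 TT) TT = true :=
  (KTree.all_node key30 (KTree.all_node key14 (KTree.all_node key6 (KTree.all_node key2 (KTree.all_node key0 chunk0 chunk1) (KTree.all_node key1 chunk2 chunk3)) (KTree.all_node key5 (KTree.all_node key3 chunk4 chunk5) (KTree.all_node key4 chunk6 chunk7))) (KTree.all_node key13 (KTree.all_node key9 (KTree.all_node key7 chunk8 chunk9) (KTree.all_node key8 chunk10 chunk11)) (KTree.all_node key12 (KTree.all_node key10 chunk12 chunk13) (KTree.all_node key11 chunk14 chunk15)))) (KTree.all_node key29 (KTree.all_node key21 (KTree.all_node key17 (KTree.all_node key15 chunk16 chunk17) (KTree.all_node key16 chunk18 chunk19)) (KTree.all_node key20 (KTree.all_node key18 chunk20 chunk21) (KTree.all_node key19 chunk22 chunk23))) (KTree.all_node key28 (KTree.all_node key24 (KTree.all_node key22 chunk24 chunk25) (KTree.all_node key23 chunk26 chunk27)) (KTree.all_node key27 (KTree.all_node key25 chunk28 chunk29) (KTree.all_node key26 chunk30 chunk31)))))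

theorem not_packable : ¬ Packable (SS.map (fun n : ℕ => (n : ℚ) / (3406800 : ℕ))) 12 :=
  not_packable_of_memo4 SS MS GS 3406800 12 15 1133964 1136420 3406800 1133964 3406801 13 TT (by norm_num) pre_ok range_ok all_ok

end Vale.Agent.Lib.P302.Inst119
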